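import Vale.Agent.P068.Failure
import Vale.Agent.P068.Packing
import Vale.Agent.P068.Z.Build

/-!
Hand-in: matroid intersection and packing/covering fail on a countable ground set, in ZFC.
-/

namespace Vale.Agent.Results.P068.IntersectionFalse

open Set Matroid Vale.Agent.P068

theorem result :
    (∃ (α : Type) (_ : Countable α) (M N : Matroid α),
      M.E = Set.univ ∧ N.E = Set.univ ∧ N.Finitary ∧ ¬ SatisfiesIntersection M N) ∧
    (∃ (α : Type) (_ : Countable α) (F : Bool → Matroid α),
      (∀ i, (F i).E = Set.univ) ∧ ¬ HasPackingCoveringPartition Set.univ F) := by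
  obtain ⟨D⟩ := Z.exists_data
  refine ⟨⟨Elt, inferInstance, D.mat, pairs, D.mat_ground, pairs_ground, pairs_finitary,
    D.not_satisfiesIntersection⟩, ⟨Elt, inferInstance,
    (fun b : Bool => if b then D.mat else pairs✶), ?_, ?_⟩⟩
  · intro i
    cases i
    · simp [pairs_ground]
    · simp [D.mat_ground]
  · exact fun h => D.not_satisfiesIntersection
      (satisfiesIntersection_of_partition D.mat pairs D.mat_ground pairs_ground h)

end Vale.Agent.Results.P068.IntersectionFalse
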